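import Vale.Agent.P040.Upper

namespace Vale.Agent.Results.P040.Zarankiewicz

open Vale.Agent.P040

theorem result (m n : ℕ) :
    crossingNumber (completeBipartiteGraph (Fin m) (Fin n)) =
      (m / 2 * ((m - 1) / 2)) * (n / 2 * ((n - 1) / 2)) ∧
    (∃ D : Drawing (completeBipartiteGraph (Fin m) (Fin n)), D.IsProper ∧
      D.crossings.ncard = (m / 2 * ((m - 1) / 2)) * (n / 2 * ((n - 1) / 2))) ∧
    ∀ D : Drawing (completeBipartiteGraph (Fin m) (Fin n)), D.crossings.Finite →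
      (∀ p e f g, p ∈ D.inner e → p ∈ D.inner f → p ∈ D.inner g → e = f ∨ e = g ∨ f = g) →
      (m / 2 * ((m - 1) / 2)) * (n / 2 * ((n - 1) / 2)) ≤ D.crossings.ncard := by
  refine ⟨zarankiewicz m n, ?_, fun D h1 h2 => lower D h1 h2⟩
  have hM : (1:ℝ) < 4 * m + 2 := by have : (0:ℝ) ≤ m := Nat.cast_nonneg m; linarith
  have hp := zar_proper m n hM (by linarith)
  obtain ⟨D, hD, e⟩ := Nat.sInf_mem (s := {c | ∃ D : Drawing
    (completeBipartiteGraph (Fin m) (Fin n)), D.IsProper ∧ D.crossings.ncard = c}) ⟨_, _, hp, rfl⟩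
  exact ⟨D, hD, e.trans (zarankiewicz m n)⟩

end Vale.Agent.Results.P040.Zarankiewicz
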